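import Vale.Agent.P277.H615.R.P7R

/-!
# P277, an effective bound: combinatorics, and the values at the beginning
-/

open scoped Manifold ContDiff Topology
open Vale.Agent.P272.K Vale.Agent.P285.H281.FD Vale.Agent.P267.H175 Set Filter Metric

noncomputable section

namespace Vale.Agent.P277.H619.EB

open Vale.Agent.P277 Vale.Agent.P277.T2 Vale.Agent.P277.H335 H615

/-- Each value is attained at most once. -/
theorem sum_card_le {r N k : ℕ} {ρ : Fin k → ℝ} (hρ : ∀ e, 0 < ρ e) (a : Fin r → ℝ)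
    (ha : ∀ l, 0 ≤ a l) (x : Fin r → ℕ → ℝ) (E : ℕ → Finset (Fin r))
    (h0 : ∀ j < N, ∀ l ∈ E j, a l ≤ x l 0) (hmono : ∀ l, ∀ j < N, x l j ≤ x l (j + 1))
    (hE : ∀ j < N, ∀ l ∈ E j, x l j < x l (j + 1) ∧
      ∃ κ : Fin k → ℕ, x l (j + 1) = 1 - ∑ e, ρ e * (κ e : ℝ)) :
    ∑ j ∈ Finset.range N, (E j).card ≤
      ∑ l, {κ : Fin k → ℕ | ∑ e, ρ e * (κ e : ℝ) < 1 - a l}.ncard := by
  classical
  have h1 : ∀ j, (E j).card = ∑ l : Fin r, if l ∈ E j then 1 else 0 := by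
    intro j
    rw [Finset.sum_ite_mem, Finset.univ_inter, Finset.sum_const, smul_eq_mul, mul_one]
  simp only [h1]
  rw [Finset.sum_comm]
  refine Finset.sum_le_sum fun l _ => ?_
  rw [← Finset.card_filter]
  set J := (Finset.range N).filter fun j => l ∈ E j with hJ
  have hJ' : ∀ j ∈ J, j < N ∧ l ∈ E j := fun j hj => by
    rw [hJ, Finset.mem_filter, Finset.mem_range] at hj
    exact hj
  have hm : ∀ i j, i ≤ j → j ≤ N → x l i ≤ x l j := by
    intro i j hij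
    induction hij with
    | refl => exact fun _ => le_rfl
    | step _ ih => exact fun h => (ih (by omega)).trans (hmono l _ (by omega))
  choose! κ hκ using fun j (hj : j ∈ J) => (hE j (hJ' j hj).1 l (hJ' j hj).2).2
  have hfin : {κ : Fin k → ℕ | ∑ e, ρ e * (κ e : ℝ) < 1 - a l}.Finite := by
    refine (finite_kap hρ).subset fun κ hκ => ?_
    have h2 : ∑ e, ρ e * (κ e : ℝ) < 1 - a l := hκ
    show ∑ e, ρ e * (κ e : ℝ) < 1
    linarith [ha l]
  rw [ncard_eq_toFinset_card _ hfin]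
  refine Finset.card_le_card_of_injOn κ (fun j hj => ?_) fun i hi j hj hij => ?_
  · have hj' := hJ' j hj
    rw [Finset.mem_coe, Set.Finite.mem_toFinset]
    show ∑ e, ρ e * (κ j e : ℝ) < 1 - a l
    have h2 := hκ j hj
    have h3 := (hE j hj'.1 l hj'.2).1
    have h4 := h0 j hj'.1 l hj'.2
    have h5 := hm 0 j (Nat.zero_le _) hj'.1.le
    linarith
  · have e1 := hκ i hi
    have e2 := hκ j hj
    have hi' := hJ' i hi
    have hj' := hJ' j hj
    rw [hij, ← e2] at e1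
    rcases lt_trichotomy i j with h | h | h
    · have h3 := (hE j hj'.1 l hj'.2).1
      have h4 := hm (i + 1) j h hj'.1.le
      linarith
    · exact h
    · have h3 := (hE i hi'.1 l hi'.2).1
      have h4 := hm (j + 1) i h hi'.1.le
      linarith

variable {Y : Type} [TopologicalSpace Y] [ChartedSpace (Cm 4) Y]

/-- the value along `G l` at the beginning is at least `a l` -/
theorem base_ge {k : ℕ} {W X : CSp} {r : ℕ} {v : Y → W.pt} {p : W.pt → X.pt} {P : Bd W.pt}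
    {G : Fin r → Set Y} (hR : T2.IsRes v p P G) {N : Fin k → Bd Y} {L : Fin k → Bd X.pt}
    {c : Fin k → ℕ} {n : Fin k → Fin r → ℤ} {t : ∀ e, (L e).ι → (N e).ι → Y → ℂ}
    (ht : IsCmpV (fun y => p (v y)) L (fun e => (N e).pow (c e)) G n t)
    (hO : Dense (⋃ l, G l)ᶜ) {ρ : Fin k → ℝ} (ha : ∀ l, 0 ≤ ∑ e, ρ e * n e l / c e) {l : Fin r}
    {ξ : Cm 4 → Y} {w₀ : Cm 4} {r₀ : ℝ} {γ : Cm 4 → X.pt} {i : ∀ e, (L e).ι}
    {j : ∀ e, (N e).ι} {x : Fin k → ℚ}
    (h : NiceAtV (⋃ l, G l)ᶜ (fun y => p (v y)) t (G l) ξ w₀ r₀ γ i j x) :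
    ∑ e, ρ e * n e l / c e ≤ ∑ e, ρ e / c e * (x e : ℝ) := by
  have hw₀ := mem_ball_self (x := w₀) h.par.pos
  have hOG : Disjoint (⋃ l, G l)ᶜ (G l) :=
    disjoint_left.2 fun y hy hyG => hy (mem_iUnion.2 ⟨l, hyG⟩)
  obtain ⟨ζ, hζ, hu⟩ := ht.div (ξ w₀)
  have hξc : ContinuousAt ξ w₀ := h.par.cont w₀ hw₀
  set ch : Chart 4 Y := chartAt (Cm 4) (ξ w₀) with hch
  have hat : At ch (ξ w₀) := H19.at_chartAt _
  have hξa := (h.par.an w₀ hw₀ ch hat).1
  have hζa : ∀ l, AnalyticAt ℂ (fun w => ζ l (ξ w)) w₀ := fun l =>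
    analyticAt_comp_chart hξc hat hξa ((hζ l).2 ch hat).1
  have hζne : ∀ l, ∀ᶠ w in 𝓝 w₀, w ∈ {w | ξ w ∈ (⋃ l, G l)ᶜ} → w 0 ≠ 0 → ζ l (ξ w) ≠ 0 := by
    intro l
    filter_upwards [hξc.eventually (hζ l).1] with w hw hwO _ h0
    exact hwO (mem_iUnion.2 ⟨l, hw.1 h0⟩)
  have hζnz : ∀ l, ¬ ∀ᶠ w in 𝓝 w₀, ζ l (ξ w) = 0 := by
    intro l hz
    obtain ⟨w, ⟨h1, h2⟩, -, h3⟩ := IsPar.dense h.par hO hw₀ (hz.and (hξc.eventually (hζ l).1))
    exact h3 (mem_iUnion.2 ⟨l, h2.1 h1⟩)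
  choose μ hμ hμ1 using fun l => HasOrd.of_analytic (D := {w | ξ w ∈ (⋃ l, G l)ᶜ}) h.par.zero
    (hζa l) (hζnz l)
  have hvx : p (v (ξ w₀)) = γ w₀ := by
    refine lim_eq (b := fun w => p (v (ξ w))) (b' := γ) hO h.par h.par rfl
      (ContinuousAt.comp (g := p) hR.cont.continuousAt (holAt_par hR.emb h.par hw₀).1)
      (h.hol w₀ hw₀).1 ?_
    intro z _ z' hz' hzz' hzO
    show p (v (ξ z)) = γ z'
    rw [hzz', h.eq z' hz' (by rw [← hzz']; exact hzO)]
  have hx : ∀ e, x e = ∑ l, (μ l : ℚ) * n e l := by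
    intro e
    obtain ⟨u, hu0, hua, htu⟩ := hu e (i e) (j e) (by rw [hvx]; exact h.memU w₀ hw₀ e)
      (h.memN w₀ hw₀ e)
    have h1 : HasOrd {w | ξ w ∈ (⋃ l, G l)ᶜ} w₀ (fun w => u (ξ w)) 0 :=
      HasOrd.of_unit h.par.zero (analyticAt_comp_chart hξc hat hξa (hua ch hat)) hu0
    have h2 := HasOrd.prod h.par.zero Finset.univ fun l => (hμ l).zpow (hζne l) (n e l)
    have h3 := h1.mul h.par.zero h2
    rw [zero_add] at h3
    have h4 := h3.congr (τ' := fun w => t e (i e) (j e) (ξ w)) (by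
      filter_upwards [hξc.eventually htu] with w hw hwO _
      exact hw hwO)
    have hua' := analyticAt_comp_chart hξc hat hξa (hua ch hat)
    refine HasOrd.unique h.par.zero (IsPar.denseNear h.par hO hOG hw₀) ?_
      (h.ord w₀ hw₀ h.par.zero e) h4
    filter_upwards [hξc.eventually htu, eventually_all.2 hζne,
      hua'.continuousAt.eventually_ne hu0] with w g1 g2 g3 hwO hw0
    show t e (i e) (j e) (ξ w) ≠ 0
    rw [g1 hwO]
    exact mul_ne_zero g3 (Finset.prod_ne_zero_iff.2 fun l _ => zpow_ne_zero _ (g2 l hwO hw0))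
  have hμl : 1 ≤ μ l := by
    refine hμ1 l ?_
    filter_upwards [hξc.eventually (hζ l).1, isOpen_ball.mem_nhds hw₀] with w g1 g2 g3
    exact g1.2 ((h.par.mem w g2).2 g3)
  have h1 : ∑ e, ρ e / c e * (x e : ℝ) = ∑ l, (μ l : ℝ) * ∑ e, ρ e * n e l / c e := by
    simp only [hx]
    push_cast
    simp only [Finset.mul_sum]
    rw [Finset.sum_comm]
    exact Finset.sum_congr rfl fun l _ => Finset.sum_congr rfl fun e _ => by ring
  rw [h1]
  refine le_trans ?_ (Finset.single_le_sum (f := fun l => (μ l : ℝ) * ∑ e, ρ e * n e l / c e)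
    (fun l _ => mul_nonneg (Nat.cast_nonneg _) (ha l)) (Finset.mem_univ l))
  have h2 : (1 : ℝ) ≤ μ l := by exact_mod_cast hμl
  nlinarith [ha l]

end Vale.Agent.P277.H619.EB
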