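import Vale.Agent.P277.H619.EB.Rank
import Vale.Agent.P277.H619.EB.Comb
import Vale.Agent.P277.H615.I.Comps

/-!
# P277, an effective bound for the number of flips of NQC canonical pairs
-/

set_option maxSynthPendingDepth 3

open scoped Manifold ContDiff Topology
open Vale.Agent.P272.K Vale.Agent.P285.H281.FD Vale.Agent.P267.H175 Set Filter Metric

noncomputable section

namespace Vale.Agent.P277.H619.EB

open Vale.Agent.P277 Vale.Agent.P277.T2 Vale.Agent.P277.H335 H615 H619 H19 H371.C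

/-- the number of the `κ` in `V` with value `≤ x` -/
def cnt {k : ℕ} (ρ : Fin k → ℝ) (V : Finset (Fin k → ℕ)) (x : ℝ) : ℕ :=
  (V.filter fun κ => 1 - ∑ e, ρ e * (κ e : ℝ) ≤ x).card

theorem cnt_mono {k : ℕ} (ρ : Fin k → ℝ) (V : Finset (Fin k → ℕ)) {x y : ℝ} (h : x ≤ y) :
    cnt ρ V x ≤ cnt ρ V y :=
  Finset.card_le_card fun v hv => by
    rw [Finset.mem_filter] at hv ⊢
    exact ⟨hv.1, hv.2.trans h⟩

theorem cnt_lt {k : ℕ} {ρ : Fin k → ℝ} {V : Finset (Fin k → ℕ)} {x y : ℝ} (h : x < y)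
    {κ : Fin k → ℕ} (hκ : κ ∈ V) (hy : y = 1 - ∑ e, ρ e * (κ e : ℝ)) :
    cnt ρ V x + 1 ≤ cnt ρ V y := by
  refine Finset.card_lt_card ⟨fun v hv => ?_, fun hsub => ?_⟩
  · rw [Finset.mem_filter] at hv ⊢
    exact ⟨hv.1, hv.2.trans h.le⟩
  · have h1 := hsub (Finset.mem_filter.2 ⟨hκ, hy ▸ le_rfl⟩)
    rw [Finset.mem_filter, ← hy] at h1
    exact absurd h1.2 (not_le.2 h)

theorem sg_dim' {X : CSp} {S : Set X.pt} (hSan : IsAn X univ S) (hS2 : DimLe X 2 S)
    (hs : DimLe X 1 {x | x ∈ S ∧ ¬ IsReg 4 X x}) : DimLe X 1 (Sg X S) := by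
  refine (hs.union (H762.stL1 X S hSan hS2)).mono ?_
  rintro x ⟨hxS, hx⟩
  by_cases h2 : IsReg 4 X x
  · exact Or.inr ⟨hxS, fun h3 => hx ⟨h2, h3⟩⟩
  · exact Or.inl ⟨hxS, h2⟩

/-- **(EB)** an effective bound for the number of flips -/
theorem stEB (Y : Type) [TopologicalSpace Y] [T2Space Y] [CompactSpace Y]
    [ChartedSpace (Cm 4) Y] [IsManifold 𝓘(ℂ, Cm 4) ω Y] :
    ∃ b : ℕ, ∀ (χ : Chart 4 Y → Cm 4 → Matrix (Fin 4) (Fin 4) ℂ) (k : ℕ) (M : Fin k → Bd Y)
      (m : Fin k → ℕ) (ρ : Fin k → ℝ) (N : ℕ) (W : CSp)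
      (X Z : ℕ → CSp) (r : ℕ) (v : Y → W.pt) (p : W.pt → (X 0).pt) (P : Bd W.pt)
      (G : Fin r → Set Y) (f : ∀ j, (X j).pt → (Z j).pt)
      (f' : ∀ j, (X (j + 1)).pt → (Z j).pt) (A : ∀ j, Set (Z j).pt)
      (L : ∀ j, Fin k → Bd (X j).pt) (c : ℕ → Fin k → ℕ) (n : Fin k → Fin r → ℤ)
      (t : ∀ e, (L 0 e).ι → ((((Bd.can 4 Y).pow (m e)).mul (M e)).pow (c 0 e)).ι → Y → ℂ),
      IsKahler χ → (∀ e, IsLB 4 (M e)) → (∀ e, Nef χ (M e)) → (∀ e, 1 ≤ m e) →
      (∀ e, 0 < ρ e) → ∑ e, ρ e * m e = 1 → T2.IsRes v p P G → (∀ j e, 1 ≤ c j e) →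
      IsCmpV (fun y => p (v y)) (L 0)
        (fun e => (((Bd.can 4 Y).pow (m e)).mul (M e)).pow (c 0 e)) G n t →
      (∀ l, 0 ≤ ∑ e, ρ e * n e l / c 0 e) →
      (∀ j < N, IsFlipR (X j) (Z j) (X (j + 1)) (f j) (f' j) (A j) (L j) (L (j + 1)) (c j)
        (c (j + 1)) ρ) →
      N ≤ b + 3 * ∑ l, {κ : Fin k → ℕ |
        ∑ e, ρ e * (κ e : ℝ) < 1 - ∑ e, ρ e * n e l / c 0 e}.ncard := by
  classical
  obtain ⟨b, hb⟩ := rank_bound Y
  refine ⟨b, fun χ k M m ρ N W X Z r v p P G f f' A L c n t hχ hM hnef hm hρ hsum hR hc ht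
    hn hflip => ?_⟩
  rcases Nat.eq_zero_or_pos N with rfl | hNpos
  · exact Nat.zero_le _
  have hX0 := (hflip 0 hNpos).normal
  have hreg := RR.stRegR Y χ hχ k M hM hnef m hm ρ hρ hsum N W X Z hX0 r v p P G hR f f' A L c hc
    ⟨n, t, ht, hn⟩ hflip
  have hk : 1 ≤ k := by
    rcases Nat.eq_zero_or_pos k with rfl | h
    · simp at hsum
    · exact h
  set NB : Fin k → Bd Y := fun e => ((Bd.can 4 Y).pow (m e)).mul (M e) with hNB
  have hN : ∀ e, CtBd (NB e) := fun e => ctBd (hM e) (m e)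
  have hneX : Nonempty (X 0).pt := by
    have h1 := (hflip 0 hNpos).ninj
    rw [Function.Injective] at h1
    push Not at h1
    obtain ⟨x, -⟩ := h1
    exact ⟨x⟩
  have hneW : Nonempty W.pt := by
    obtain ⟨x⟩ := hneX
    obtain ⟨w, -⟩ := hR.psurj x
    exact ⟨w⟩
  have hneY : Nonempty Y := by
    obtain ⟨w⟩ := hneW
    obtain ⟨y, -⟩ := hR.surj w
    exact ⟨y⟩
  have hDd : Dense (⋃ l, G l)ᶜ := dense_compl_iUnion_hyp hR.hyp hR.closed
  have hDc : IsClosed (⋃ l, G l) := isClosed_iUnion_of_finite hR.closed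
  set a : Fin r → ℝ := fun l => ∑ e, ρ e * n e l / c 0 e with ha
  have hkfin : ∀ l, {κ : Fin k → ℕ | ∑ e, ρ e * (κ e : ℝ) < 1 - a l}.Finite := by
    intro l
    refine (finite_kap hρ).subset fun κ hκ => ?_
    have h2 : ∑ e, ρ e * (κ e : ℝ) < 1 - a l := hκ
    have h3 : 0 ≤ a l := hn l
    show ∑ e, ρ e * (κ e : ℝ) < 1
    linarith
  set V : Fin r → Finset (Fin k → ℕ) := fun l => (hkfin l).toFinset with hV
  have hbase : ∀ l, (G l).Nonempty → ∀ α : Fin r → Fin k → ℚ,
      OrdDV (N := NB) v G (⋃ l, G l)ᶜ (fun y => p (v y)) t (c 0) α →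
        a l ≤ ∑ e, ρ e * (α l e : ℝ) := by
    intro l hl α hα
    have h1 := TwV.base H884.stL0 hX0 hR hneW (N := NB) (fun e => (hN e).isOpen)
      (fun e => (hN e).cover) (hflip 0 hNpos).lb (hc 0) ht hn
    obtain ⟨h2, -⟩ := NSV_conn H884.stConn hR.emb (hR.hyp l) (hR.conn l) (hα.thin l)
    obtain ⟨y, hy⟩ := hl
    obtain ⟨y', hy'⟩ := (mem_closure_iff_nhds.1 (h2 hy)) univ univ_mem
    obtain ⟨-, ξ, w₀, r₀, γ, i, ν, x, h, rfl⟩ := hy'.2
    have h3 := base_ge hR ht hDd hn h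
    have h4 := hα.ord l ξ w₀ r₀ γ i ν x h
    refine h3.trans (le_of_eq (Finset.sum_congr rfl fun e _ => ?_))
    rw [h4 e]
    have h5 : (c 0 e : ℝ) ≠ 0 := by
      have := hc 0 e
      positivity
    push_cast
    field_simp
  have key : ∀ j ≤ N, ∃ (O : Set Y) (v' : Y → (X j).pt) (P' Q' : Fin k → ℕ)
      (T : ∀ e, (L j e).ι → (NB e).ι → Y → ℂ) (α : Fin r → Fin k → ℚ) (S : Set (X j).pt),
      TwV v (⋃ l, G l) NB (X j) (L j) (c j) O v' P' Q' T ρ S ∧
      OrdDV v G O v' T Q' α ∧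
      (∀ l, (G l).Nonempty → a l ≤ ∑ e, ρ e * (α l e : ℝ)) ∧
      ∃ kk : ℕ → ℕ, (∀ i < j, ¬ DimLe (X (i + 1)) 1 (f' i ⁻¹' Amin (f i)) → 1 ≤ kk i ∧
        ∃ d : Fin (kk i) → (X (i + 1)).pt,
          ∀ x ∈ f' i ⁻¹' Amin (f i) \ Sg (X (i + 1)) (f' i ⁻¹' Amin (f i)), ∃ u,
            x ∈ connectedComponentIn (f' i ⁻¹' Amin (f i) \
              Sg (X (i + 1)) (f' i ⁻¹' Amin (f i))) (d u)) ∧
        ∑ i ∈ Finset.range j, kk i ≤ ∑ l, cnt ρ (V l) (∑ e, ρ e * (α l e : ℝ)) := by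
    intro j
    induction j with
    | zero =>
      intro _
      have h1 := TwV.base H884.stL0 hX0 hR hneW (N := NB) (fun e => (hN e).isOpen)
        (fun e => (hN e).cover) (hflip 0 hNpos).lb (hc 0) ht hn
      obtain ⟨α, hα⟩ := OrdDV.base hR hN ht h1 hDd
      exact ⟨_, _, _, _, _, α, _, h1, hα, fun l hl => hbase l hl α hα, fun _ => 0,
        fun i hi => absurd hi (Nat.not_lt_zero i), by simp⟩
    | succ j ih =>
      intro hj
      obtain ⟨O, v', P', Q', T, α, S, hTw, hOrd, hge, kk, hkk, hcount⟩ := ih (by omega)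
      obtain ⟨pp, qq, s, d, a', hd, hcpq, hf, hda⟩ := exists_flipD (hflip j (by omega)) (hc j)
      choose b' hb0 using fun e => (hf.lb e).cover
      have hb' : ∀ e x, x ∈ (L j e).U (b' e x) := hb0
      have hTw' := hTw.step hk (fun e => (hN e).isOpen) hR.emb hf hd hcpq hda hb'
      have hdO' : Dense {y | y ∈ O ∧ f j (v' y) ∉ Amin (f j)} :=
        (hTw'.tw ⟨0, hk⟩).dense hR.emb hR.surj hDd hDc
      obtain ⟨α', hOrd', hle, hlt⟩ := hOrd.step H884.stConn hR.emb hR.hyp hR.conn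
        (fun l => subset_iUnion G l) hN hk hTw hf hd hcpq hda hb' hdO'
      have hmono : ∀ l, cnt ρ (V l) (∑ e, ρ e * (α l e : ℝ)) ≤
          cnt ρ (V l) (∑ e, ρ e * (α' l e : ℝ)) := fun l => cnt_mono ρ (V l) (hle l)
      refine ⟨_, _, _, _, _, α', _, hTw', hOrd', fun l hl => (hge l hl).trans (hle l), ?_⟩
      by_cases hJ : DimLe (X (j + 1)) 1 (f' j ⁻¹' Amin (f j))
      · refine ⟨Function.update kk j 0, fun i hi hi' => ?_, ?_⟩
        · rcases eq_or_ne i j with rfl | hij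
          · exact absurd hJ hi'
          · rw [Function.update_of_ne hij]
            exact hkk i (lt_of_le_of_ne (Nat.lt_succ_iff.1 hi) hij) hi'
        · rw [Finset.sum_range_succ, Function.update_self, add_zero]
          refine le_trans (le_of_eq (Finset.sum_congr rfl fun i hi => ?_))
            (hcount.trans (Finset.sum_le_sum fun l _ => hmono l))
          rw [Function.update_of_ne (Finset.mem_range.1 hi).ne]
      · have hSO : f' j ⁻¹' Amin (f j) ⊆ ((fun y => hf.small'.sec (f j (v' y))) ''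
            {y | y ∈ O ∧ f j (v' y) ∉ Amin (f j)})ᶜ := by
          rintro x' hx' ⟨y, hy, rfl⟩
          have h1 : f' j (hf.small'.sec (f j (v' y))) ∈ Amin (f j) := hx'
          rw [hf.small'.sec_eq] at h1
          exact hy.2 h1
        have hSan : IsAn (X (j + 1)) univ (f' j ⁻¹' Amin (f j)) :=
          hf.small'.an.preimage (V := univ) fun x => hf.small'.holMap x
        have hΘ1 := sg_dim' hSan hf.small'.dim (hreg j (by omega))
        obtain ⟨E, d', hd', hE⟩ := I.exists_comps H884.stConn (H19.stTD_of_core TD.stCore)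
          H884.stDis hR.emb hR.surj hR.hyp hR.closed hR.conn hχ hnef hρ hsum hk hM hTw'
          hOrd'.thin hdO' hSan hSO (sg_closed hSan) hΘ1 (fun x hx => by
            by_contra h
            exact hx.2 ⟨hx.1, h⟩)
        have hE1 : 1 ≤ E.card := by
          have h1 : ¬ (f' j ⁻¹' Amin (f j)) ⊆ Sg (X (j + 1)) (f' j ⁻¹' Amin (f j)) :=
            fun h => hJ (hΘ1.mono h)
          obtain ⟨x, hx, hx'⟩ := not_subset.1 h1
          obtain ⟨i, -⟩ := hd' x ⟨hx, hx'⟩
          exact (Nat.zero_le _).trans_lt i.2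
        refine ⟨Function.update kk j E.card, fun i hi hi' => ?_, ?_⟩
        · rcases eq_or_ne i j with rfl | hij
          · rw [Function.update_self]
            exact ⟨hE1, d', hd'⟩
          · rw [Function.update_of_ne hij]
            exact hkk i (lt_of_le_of_ne (Nat.lt_succ_iff.1 hi) hij) hi'
        · rw [Finset.sum_range_succ, Function.update_self]
          have h1 : ∑ i ∈ Finset.range j, Function.update kk j E.card i =
              ∑ i ∈ Finset.range j, kk i := Finset.sum_congr rfl fun i hi => by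
            rw [Function.update_of_ne (Finset.mem_range.1 hi).ne]
          rw [h1]
          have h2 : ∀ l ∈ E, cnt ρ (V l) (∑ e, ρ e * (α l e : ℝ)) + 1 ≤
              cnt ρ (V l) (∑ e, ρ e * (α' l e : ℝ)) := by
            intro l hl
            obtain ⟨ξ, w₀, r', γ, i, ν, x, hn', hnS, κ, hxκ, hκ⟩ := hE l hl
            have hlt' := hlt l ξ w₀ r' γ i ν x hn' hnS
            have hord := hOrd'.ord l ξ w₀ r' γ i ν x hn'
            have hval : ∑ e, ρ e * (α' l e : ℝ) = 1 - ∑ e, ρ e * (κ e : ℝ) := by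
              have h1 : ∀ e, (α' l e : ℝ) = m e - κ e := by
                intro e
                have h2 : ((Q' e * pp e : ℕ) : ℚ) ≠ 0 := by
                  have := (hTw'.tw e).hQ
                  exact_mod_cast (Nat.one_le_iff_ne_zero.1 this)
                have h3 := (hord e).symm.trans (hxκ e)
                rw [mul_comm] at h3
                have h4 := mul_left_cancel₀ h2 h3
                rw [h4]
                push_cast
                ring
              simp only [h1, mul_sub]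
              rw [Finset.sum_sub_distrib, hsum]
            have hl' : (G l).Nonempty :=
              ⟨ξ w₀, (hn'.par.mem w₀ (mem_ball_self hn'.par.pos)).2 hn'.par.zero⟩
            refine cnt_lt hlt' ((hkfin l).mem_toFinset.2 ?_) hval
            have h3 := hge l hl'
            show ∑ e, ρ e * (κ e : ℝ) < 1 - a l
            linarith
          have h3 : ∑ l, (if l ∈ E then 1 else 0) = E.card := by
            rw [Finset.sum_ite_mem, Finset.univ_inter, Finset.sum_const, smul_eq_mul, mul_one]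
          rw [← h3]
          refine (Nat.add_le_add_right hcount _).trans ?_
          rw [← Finset.sum_add_distrib]
          refine Finset.sum_le_sum fun l _ => ?_
          split_ifs with hl
          · exact h2 l hl
          · exact hmono l
  obtain ⟨O, v', P', Q', T, α, S, -, -, -, kk, hkk, hcount⟩ := key N le_rfl
  have hD : ∀ j < N, ∃ (L₁ : Bd (X j).pt) (L₂ : Bd (X (j + 1)).pt),
      IsFlip (X j) (Z j) (X (j + 1)) (f j) (f' j) (Amin (f j)) L₁ L₂ := by
    intro j hj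
    obtain ⟨p, q, s, d, a, -, -, h1, -⟩ := exists_flipD (hflip j hj) (hc j)
    exact ⟨_, _, h1.flip none⟩
  have h1 := hb N X Z (fun y => p (v y)) (⋃ l, G l)ᶜ (isRes_top hR) f f'
    (fun j => Amin (f j)) hD hreg kk hkk
  refine h1.trans (Nat.add_le_add_left (Nat.mul_le_mul_left 3 (hcount.trans ?_)) b)
  refine Finset.sum_le_sum fun l _ => ?_
  rw [ncard_eq_toFinset_card _ (hkfin l)]
  exact Finset.card_filter_le _ _

end Vale.Agent.P277.H619.EB
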