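import Vale.Agent.P277.H371.C.Fin

/-!
# P277, an effective bound: the rank half
-/

set_option maxSynthPendingDepth 3

open scoped Manifold ContDiff Topology
open Vale.Agent.P272.K Vale.Agent.P285.H281.FD Vale.Agent.P267.H175 Set Filter

noncomputable section

namespace Vale.Agent.P277.H619.EB

open Vale.Agent.P277 H619 H19 H615 H371.C

/-- the points of `S` where `X` is singular or `S` is not a surface -/
def Sg (X : CSp) (S : Set X.pt) : Set X.pt := {x | x ∈ S ∧ ¬ (IsReg 4 X x ∧ IsSurfX X S x)}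

section

variable {Y : Type} [TopologicalSpace Y] [T2Space Y] [SecondCountableTopology Y]
  [ChartedSpace (Cm 4) Y] [IsManifold 𝓘(ℂ, Cm 4) ω Y]

theorem sg_dim {X : CSp} {W O : Set Y} {v : Y → X.pt} {E : Set X.pt} (hM : PMod X W O v E)
    {S : Set X.pt} (hSan : IsAn X univ S) (hS2 : DimLe X 2 S) (hSE : S ⊆ E) :
    DimLe X 1 (Sg X S) := by
  refine (hM.dim.union (H762.stL1 X S hSan hS2)).mono ?_
  rintro x ⟨hxS, hx⟩
  by_cases h2 : IsReg 4 X x
  · exact Or.inr ⟨hxS, fun h3 => hx ⟨h2, h3⟩⟩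
  · exact Or.inl ⟨hSE hxS, h2⟩

omit [T2Space Y] [SecondCountableTopology Y] [ChartedSpace (Cm 4) Y]
  [IsManifold 𝓘(ℂ, Cm 4) ω Y] [TopologicalSpace Y] in
theorem sg_closed {X : CSp} {S : Set X.pt} (hSan : IsAn X univ S) : IsClosed (Sg X S) := by
  have hScl : IsClosed S := isClosed_of_isAn hSan
  rw [← isOpen_compl_iff, isOpen_iff_mem_nhds]
  intro x hx
  by_cases hxS : x ∈ S
  · have h2 : IsReg 4 X x ∧ IsSurfX X S x := by
      by_contra h3; exact hx ⟨hxS, h3⟩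
    filter_upwards [(RegT.isOpen_reg X).mem_nhds h2.1, isSurfX_open h2.2] with y hy1 hy2 hy3
    exact hy3.2 ⟨hy1, hy2 hy3.1⟩
  · filter_upwards [hScl.isOpen_compl.mem_nhds hxS] with y hy hy2
    exact hy hy2.1

/-- the rank and the components of a surface -/
theorem rank_comp {X : CSp} {W O : Set Y} {v : Y → X.pt} {E : Set X.pt} (hM : PMod X W O v E)
    (hne : Nonempty (RegT X)) {S : Set X.pt} (hSan : IsAn X univ S) (hS2 : DimLe X 2 S)
    (hSE : S ⊆ E) {ρ : ℕ} (hρ : RankXS X W v E S ρ) {k : ℕ} (c : Fin k → X.pt)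
    (hc : ∀ x ∈ S \ Sg X S, ∃ i, x ∈ connectedComponentIn (S \ Sg X S) (c i)) :
    RankX X W v E (ρ + 2 * k) := by
  obtain ⟨y0⟩ := hne
  have hT1 := sg_dim hM hSan hS2 hSE
  have hScl : IsClosed S := isClosed_of_isAn hSan
  have hTcl := sg_closed hSan
  have hST : ∀ x ∈ S \ Sg X S, IsReg 4 X x ∧ IsSurfX X S x := by
    rintro x ⟨hxS, hxT⟩
    by_contra h2
    exact hxT ⟨hxS, h2⟩
  obtain ⟨c', hc'⟩ := comp_reg (fun x hx => (hST x hx).1) y0 c hc
  refine stepX hM ⟨y0⟩ hScl hTcl (fun x hx => hx.1) hSE (negl_of_dimLe hT1 (by norm_num))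
    (negl_of_dimLe hS2 (by norm_num)) ?_ k c' hc' ρ hρ
  intro x hx
  exact isSurfAt_of (hST x.val hx).2

/-- an arbitrary flip whose flipped locus is generically contained in the regular locus -/
theorem surf_step' {X Z X' : CSp} {f : X.pt → Z.pt} {f' : X'.pt → Z.pt} {A : Set Z.pt}
    (H : IsSmall X Z f A) (H' : IsSmall X' Z f' A) {W O : Set Y} {v : Y → X.pt}
    {E : Set X.pt} (hM : PMod X W O v E) (hne' : Nonempty (RegT X'))
    (hreg : DimLe X' 1 {x | x ∈ f' ⁻¹' A ∧ ¬ IsReg 4 X' x}) {ρ : ℕ} (hρ : RankX X W v E ρ)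
    {k : ℕ} (c : Fin k → X'.pt) (hc : ∀ x ∈ f' ⁻¹' A \ Sg X' (f' ⁻¹' A),
      ∃ i, x ∈ connectedComponentIn (f' ⁻¹' A \ Sg X' (f' ⁻¹' A)) (c i)) :
    RankX X' {y | y ∈ W ∧ f (v y) ∉ A} (H615.tr f H' ∘ v) (f' ⁻¹' (f '' E ∪ A)) (ρ + 2 * k) := by
  obtain ⟨y0'⟩ := hne'
  have hM' := pmod_step H H' hM hreg
  have h1 : RankXS X' {y | y ∈ W ∧ f (v y) ∉ A} (H615.tr f H' ∘ v) (f' ⁻¹' (f '' E ∪ A))
      (f' ⁻¹' A) ρ := by
    intro n a b ha hb
    refine hρ n a b (fun i => ?_) fun i => ?_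
    · obtain ⟨c, hc, N, h1, h2, h3, h4, h5⟩ := ha i
      exact hc.tr H H' hM y0' h1 h2 h3 h4 h5
    · obtain ⟨c, hc, N, h1, h2, h3, h4, h5⟩ := hb i
      exact hc.tr H H' hM y0' h1 h2 h3 h4 h5
  have hSan : IsAn X' univ (f' ⁻¹' A) := by
    have h2 : IsAn X' (f' ⁻¹' univ) (f' ⁻¹' A) := IsAn.preimage (fun x => H'.holMap x) H'.an
    simpa using h2
  exact rank_comp hM' ⟨y0'⟩ hSan H'.dim (preimage_mono subset_union_right) h1 c hc

end

/-- **the rank half**: the number of flips is bounded by the rank of the pairing on `Y` and the number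
of components of the flipped surfaces. -/
theorem rank_bound (Y : Type) [TopologicalSpace Y] [T2Space Y] [CompactSpace Y]
    [ChartedSpace (Cm 4) Y] [IsManifold 𝓘(ℂ, Cm 4) ω Y] : ∃ b : ℕ, ∀ (N : ℕ) (X Z : ℕ → CSp)
      (p : Y → (X 0).pt) (O : Set Y) (_ : IsRes Y (X 0) p O) (f : ∀ j, (X j).pt → (Z j).pt)
      (f' : ∀ j, (X (j + 1)).pt → (Z j).pt) (A : ∀ j, Set (Z j).pt)
      (_ : ∀ j < N, ∃ (L : Bd (X j).pt) (L' : Bd (X (j + 1)).pt),
        IsFlip (X j) (Z j) (X (j + 1)) (f j) (f' j) (A j) L L')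
      (_ : ∀ j < N, DimLe (X (j + 1)) 1 {x | x ∈ f' j ⁻¹' A j ∧ ¬ IsReg 4 (X (j + 1)) x})
      (k : ℕ → ℕ)
      (_ : ∀ j < N, ¬ DimLe (X (j + 1)) 1 (f' j ⁻¹' A j) → 1 ≤ k j ∧
        ∃ c : Fin (k j) → (X (j + 1)).pt,
          ∀ x ∈ f' j ⁻¹' A j \ Sg (X (j + 1)) (f' j ⁻¹' A j),
            ∃ i, x ∈ connectedComponentIn (f' j ⁻¹' A j \ Sg (X (j + 1)) (f' j ⁻¹' A j)) (c i)),
      N ≤ b + 3 * ∑ j ∈ Finset.range N, k j := by
  have : SecondCountableTopology Y := ChartedSpace.secondCountable_of_sigmaCompact (Cm 4) Y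
  obtain ⟨ρ₀, hρ₀⟩ := stRkCpt stPair Y
  refine ⟨ρ₀, fun N X Z p O hp f f' A hflip hreg k hk => ?_⟩
  rcases Nat.eq_zero_or_pos N with rfl | hN
  · exact Nat.zero_le _
  have key : ∀ j ≤ N, ∃ (W O : Set Y) (v : Y → (X j).pt) (E : Set (X j).pt) (ρ : ℕ),
      PMod (X j) W O v E ∧ RankX (X j) W v E ρ ∧
        ρ + j ≤ ρ₀ + 3 * ∑ i ∈ Finset.range j, k i := by
    intro j
    induction j with
    | zero =>
      intro _
      obtain ⟨L, L', F⟩ := hflip 0 hN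
      obtain ⟨x0⟩ := (ne_reg F).1
      have : Nonempty (X 0).pt := ⟨x0.1⟩
      have hM := pmod_base hp
      exact ⟨univ, O, p, ∅, ρ₀, hM, rank_base hM hρ₀, by simp⟩
    | succ j ih =>
      intro hj
      obtain ⟨W, O, v, E, ρ, hM, hρ, hle⟩ := ih (by omega)
      obtain ⟨L, L', F⟩ := hflip j (by omega)
      have hM' := pmod_step F.small F.small' hM (hreg j (by omega))
      rw [Finset.sum_range_succ]
      by_cases hd : DimLe (X (j + 1)) 1 (f' j ⁻¹' A j)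
      · obtain ⟨ρ', h1, h2⟩ := thin_step F hM (ne_reg F).1 (ne_reg F).2 hd hρ
        exact ⟨_, _, _, _, ρ', hM', h2, by omega⟩
      · obtain ⟨h1, c, hc⟩ := hk j (by omega) hd
        exact ⟨_, _, _, _, _, hM', surf_step' F.small F.small' hM (ne_reg F).2
          (hreg j (by omega)) hρ c hc, by omega⟩
  obtain ⟨W, O, v, E, ρ, -, -, hle⟩ := key N le_rfl
  omega

end Vale.Agent.P277.H619.EB
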