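import Vale.Agent.P277.H619.EB.Merged

/-!
# P277: the merged theorem contains the two former hand-ins `ThinFlipsAll` and `EffectiveBound`
-/

open scoped Manifold ContDiff
open Vale.Agent.P272.K Vale.Agent.P285.H281.FD Vale.Agent.P277 Vale.Agent.P277.HD Set

namespace Vale.Agent.P277.H619.EB

/-- the statement of `ThinFlipsAll.result`, literally, from the merged theorem -/
theorem thinFlipsAll_of_merged (Y : Type) [TopologicalSpace Y] [T2Space Y] [CompactSpace Y]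
    [ChartedSpace (Cm 4) Y] [IsManifold 𝓘(ℂ, Cm 4) ω Y] :
    ∃ b : ℕ, ∀ (N : ℕ) (X Z : ℕ → CSp) (W O : Set Y) (v : Y → (X 0).pt) (τ : Set (X 0).pt)
      (f : ∀ j, (X j).pt → (Z j).pt) (f' : ∀ j, (X (j + 1)).pt → (Z j).pt)
      (A : ∀ j, Set (Z j).pt) (L : ∀ j, Bd (X j).pt) (L' : ∀ j, Bd (X (j + 1)).pt) (k : ℕ → ℕ),
      IsMod (X 0) W O v τ →
      (∀ j < N, IsFlip (X j) (Z j) (X (j + 1)) (f j) (f' j) (A j) (L j) (L' j)) →
      (∀ j < N, NumSurf (X (j + 1)) (Exc (f' j)) (k j)) →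
      N ≤ b + 3 * ∑ j ∈ Finset.range N, k j :=
  (stEBM Y).imp fun _ h => h.1

end Vale.Agent.P277.H619.EB
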