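import Vale.Agent.P277.H619.EB.Merged
import Vale.Agent.P277.H29.CY.Trans

/-!
# P277, the two bounds for the number of flips; `D' ∼_ℝ μ D`
-/

open scoped Manifold ContDiff
open Vale.Agent.P272.K Vale.Agent.P285.H281.FD Vale.Agent.P277 Set

namespace Vale.Agent.P277.H619.EB

open Vale.Agent.P277.H29.CY

/-- flips of `D` are flips of `t D + (1 - t) D'` if `D' ∼_ℝ μ D`, `μ ≥ 0` -/
theorem flip_triv {X Z : ℕ → CSp} {K N : ℕ} {f : ∀ j, (X j).pt → (Z j).pt}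
    {f' : ∀ j, (X (j + 1)).pt → (Z j).pt} {A : ∀ j, Set (Z j).pt}
    {L : ∀ j, Fin K → Bd (X j).pt} {c : ℕ → Fin K → ℕ} {ρ σ : Fin K → ℝ}
    (hflip : ∀ j < N, IsFlipR (X j) (Z j) (X (j + 1)) (f j) (f' j) (A j) (L j) (L (j + 1)) (c j)
      (c (j + 1)) ρ) {μ : ℝ} (hμ : 0 ≤ μ)
    (hτ : T3.IsRTriv (X 0) (L 0) (c 0) fun e => σ e - μ * ρ e)
    {t : ℝ} (h0 : 0 < t) (h1 : t ≤ 1) {j : ℕ} (hj : j < N) :
    IsFlipR (X j) (Z j) (X (j + 1)) (f j) (f' j) (A j) (L j) (L (j + 1)) (c j)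
      (c (j + 1)) fun e => t * ρ e + (1 - t) * σ e := by
  have h5 : 0 ≤ 1 - t := by linarith
  have htr : ∀ j ≤ N, (fun e => σ e - μ * ρ e) ∈ RTg (X j) (L j) (c j) := by
    intro j
    induction j with
    | zero => exact fun _ => IsRTriv.mem hτ
    | succ j ih => exact fun hj => RTg_trans (hflip j (by omega)) (ih (by omega))
  have h6 : (fun e => (1 - t) * (σ e - μ * ρ e)) ∈ RTg (X j) (L j) (c j) :=
    Submodule.smul_mem _ (1 - t) (htr j (by omega))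
  have h7 : (fun e => (1 - t) * (σ e - μ * ρ e)) ∈ RTg (X (j + 1)) (L (j + 1)) (c (j + 1)) :=
    Submodule.smul_mem _ (1 - t) (htr (j + 1) (by omega))
  have h8 : 0 < t + (1 - t) * μ := add_pos_of_pos_of_nonneg h0 (mul_nonneg h5 hμ)
  have h9 := isFlipR_twist (hflip j hj) (RTg_le h6) (RTg_le h7) h8
  have h10 : (fun e => t * ρ e + (1 - t) * σ e) =
      fun e => (t + (1 - t) * μ) * ρ e + (1 - t) * (σ e - μ * ρ e) := by
    funext e
    ring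
  rw [h10]
  exact h9

/-- **Two bounds for the number of flips.** For every compact complex manifold `Y` of dimension four
there is `b` such that for `N` flips `X 0 ⇢ ... ⇢ X N` of normal compact complex spaces:
(A) if `X 0` has a resolution `Y → X 0` (or a proper modification `v : W → X 0 ∖ τ`, `W ⊆ Y` open,
`τ` of dimension at most one), and if the flip `j` is a flip for a line bundle `L j` and has at most
`k j` flipped surfaces, and `X (j + 1)` is regular at their general points, then `N ≤ b + 3 ∑ k j`;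
(B) if `Y → X 0` is a log resolution of an NQC pair `(X 0, M')` which is canonical, and the flips are
flips of `u D + (1 - u) D'`, `0 < u ≤ 1`, or of `D`, and `D' ∼_ℝ μ D`, `μ ≥ 0`, then `N` is at most
`b` plus three times the number of the possible discrepancies less than those of the blow-ups of
surfaces. -/
theorem stEBT (Y : Type) [TopologicalSpace Y] [T2Space Y] [CompactSpace Y]
    [ChartedSpace (Cm 4) Y] [IsManifold 𝓘(ℂ, Cm 4) ω Y] :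
    ∃ b : ℕ, (∀ (N : ℕ) (X Z : ℕ → CSp) (W O : Set Y) (v : Y → (X 0).pt) (τ : Set (X 0).pt)
      (f : ∀ j, (X j).pt → (Z j).pt) (f' : ∀ j, (X (j + 1)).pt → (Z j).pt)
      (A : ∀ j, Set (Z j).pt) (L : ∀ j, Bd (X j).pt) (L' : ∀ j, Bd (X (j + 1)).pt) (k : ℕ → ℕ),
      HD.IsMod (X 0) W O v τ →
      (∀ j < N, IsFlip (X j) (Z j) (X (j + 1)) (f j) (f' j) (A j) (L j) (L' j)) →
      (∀ j < N, HD.NumSurf (X (j + 1)) (HD.Exc (f' j)) (k j)) →
      N ≤ b + 3 * ∑ j ∈ Finset.range N, k j) ∧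
    ∀ (χ : Chart 4 Y → Cm 4 → Matrix (Fin 4) (Fin 4) ℂ) (k : ℕ) (M : Fin k → Bd Y)
      (m : Fin k → ℕ) (ρ σ : Fin k → ℝ) (N : ℕ) (W : CSp) (X Z : ℕ → CSp) (r : ℕ)
      (v : Y → W.pt) (p : W.pt → (X 0).pt) (P : Bd W.pt) (G : Fin r → Set Y) (f : ∀ j, (X j).pt → (Z j).pt)
      (f' : ∀ j, (X (j + 1)).pt → (Z j).pt) (A : ∀ j, Set (Z j).pt)
      (L : ∀ j, Fin k → Bd (X j).pt) (c : ℕ → Fin k → ℕ) (n : Fin k → Fin r → ℤ)
      (t : ∀ e, (L 0 e).ι → ((((Bd.can 4 Y).pow (m e)).mul (M e)).pow (c 0 e)).ι → Y → ℂ),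
      IsKahler χ → (∀ e, IsLB 4 (M e)) → (∀ e, Nef χ (M e)) → (∀ e, 1 ≤ m e) →
      (∀ e, 0 < σ e) → ∑ e, ρ e * m e = 1 → ∑ e, σ e * m e = 1 → T2.IsRes v p P G →
      (∀ j e, 1 ≤ c j e) →
      T2.IsCmpV (fun y => p (v y)) (L 0)
        (fun e => (((Bd.can 4 Y).pow (m e)).mul (M e)).pow (c 0 e)) G n t →
      (∀ l, 0 < ∑ e, σ e * n e l / c 0 e ∨
        (∑ e, σ e * n e l / c 0 e = 0 ∧ 0 ≤ ∑ e, ρ e * n e l / c 0 e)) →
      ((∀ j < N, ∀ u : ℝ, 0 < u → u ≤ 1 → IsFlipR (X j) (Z j) (X (j + 1)) (f j) (f' j) (A j)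
        (L j) (L (j + 1)) (c j) (c (j + 1)) fun e => u * ρ e + (1 - u) * σ e) ∨
      (∃ μ : ℝ, 0 ≤ μ ∧ T3.IsRTriv (X 0) (L 0) (c 0) fun e => σ e - μ * ρ e) ∧
        ∀ j < N, IsFlipR (X j) (Z j) (X (j + 1)) (f j) (f' j) (A j)
          (L j) (L (j + 1)) (c j) (c (j + 1)) ρ) →
      N ≤ b + 3 * ∑ l, {κ : Fin k → ℕ |
        ∑ e, σ e * (κ e : ℝ) < 1 - ∑ e, σ e * n e l / c 0 e ∨
        (∑ e, σ e * (κ e : ℝ) = 1 - ∑ e, σ e * n e l / c 0 e ∧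
          ∑ e, ρ e * (κ e : ℝ) < 1 - ∑ e, ρ e * n e l / c 0 e)}.ncard := by
  obtain ⟨b, h₁, h₂⟩ := stEBM Y
  refine ⟨b, h₁, ?_⟩
  intro χ k M m ρ σ N W X Z r v p P G f f' A L c n t a1 a2 a3 a4 a5 a6 a7 a8 a9 a10 a11 a12
  refine h₂ χ k M m ρ σ N W X Z r v p P G f f' A L c n t a1 a2 a3 a4 a5 a6 a7 a8 a9 a10 a11 ?_
  rcases a12 with h | ⟨⟨μ, h0, hτ⟩, h1⟩
  · exact h
  · exact fun j hj u hu hu1 => flip_triv h1 h0 hτ hu hu1 hj

end Vale.Agent.P277.H619.EB
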