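import Vale.Agent.P277.H619.EB.Fin

/-!
# P277, a uniform effective bound for the number of flips which are nonpositive for a given NQC pair
-/

set_option maxSynthPendingDepth 3

open scoped Manifold ContDiff Topology
open Vale.Agent.P272.K Vale.Agent.P285.H281.FD Vale.Agent.P267.H175 Set Filter Metric

noncomputable section

namespace Vale.Agent.P277.H619.EB

open Vale.Agent.P277 Vale.Agent.P277.T2 Vale.Agent.P277.H335 H615 H619 H19 H371.C

/-- `t x + (1 - t) y > 0` for small `t` is the lexicographic positivity of `(y, x)` -/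
theorem ev_lex (x y : ℝ) : ∀ᶠ t : ℝ in 𝓝[>] 0,
    0 < t * x + (1 - t) * y → 0 < y ∨ (y = 0 ∧ 0 < x) := by
  rcases lt_trichotomy y 0 with h | h | h
  · have h1 : Tendsto (fun t : ℝ => t * x + (1 - t) * y) (𝓝 0) (𝓝 (0 * x + (1 - 0) * y)) :=
      Continuous.tendsto (by fun_prop) 0
    have h2 : ∀ᶠ t : ℝ in 𝓝 0, t * x + (1 - t) * y < 0 :=
      h1.eventually_lt_const (by linarith)
    filter_upwards [h2.filter_mono nhdsWithin_le_nhds] with t ht h3
    linarith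
  · filter_upwards [self_mem_nhdsWithin] with t ht h3
    refine Or.inr ⟨h, ?_⟩
    rw [h, mul_zero, add_zero] at h3
    exact pos_of_mul_pos_right h3 (le_of_lt ht)
  · exact Eventually.of_forall fun t _ => Or.inl h

/-- **(EBN)** a uniform effective bound for the number of flips which are nonpositive for `D'` -/
theorem stEBN (Y : Type) [TopologicalSpace Y] [T2Space Y] [CompactSpace Y]
    [ChartedSpace (Cm 4) Y] [IsManifold 𝓘(ℂ, Cm 4) ω Y] :
    ∃ b : ℕ, ∀ (χ : Chart 4 Y → Cm 4 → Matrix (Fin 4) (Fin 4) ℂ) (k : ℕ) (M : Fin k → Bd Y)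
      (m : Fin k → ℕ) (ρ σ : Fin k → ℝ) (N : ℕ) (W : CSp) (X Z : ℕ → CSp) (r : ℕ)
      (v : Y → W.pt) (p : W.pt → (X 0).pt) (P : Bd W.pt) (G : Fin r → Set Y) (f : ∀ j, (X j).pt → (Z j).pt)
      (f' : ∀ j, (X (j + 1)).pt → (Z j).pt) (A : ∀ j, Set (Z j).pt)
      (L : ∀ j, Fin k → Bd (X j).pt) (c : ℕ → Fin k → ℕ) (n : Fin k → Fin r → ℤ)
      (t : ∀ e, (L 0 e).ι → ((((Bd.can 4 Y).pow (m e)).mul (M e)).pow (c 0 e)).ι → Y → ℂ),
      IsKahler χ → (∀ e, IsLB 4 (M e)) → (∀ e, Nef χ (M e)) → (∀ e, 1 ≤ m e) →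
      (∀ e, 0 < σ e) → ∑ e, ρ e * m e = 1 → ∑ e, σ e * m e = 1 → T2.IsRes v p P G →
      (∀ j e, 1 ≤ c j e) →
      IsCmpV (fun y => p (v y)) (L 0)
        (fun e => (((Bd.can 4 Y).pow (m e)).mul (M e)).pow (c 0 e)) G n t →
      (∀ l, 0 < ∑ e, σ e * n e l / c 0 e ∨
        (∑ e, σ e * n e l / c 0 e = 0 ∧ 0 ≤ ∑ e, ρ e * n e l / c 0 e)) →
      (∀ j < N, ∀ u : ℝ, 0 < u → u ≤ 1 → IsFlipR (X j) (Z j) (X (j + 1)) (f j) (f' j) (A j)
        (L j) (L (j + 1)) (c j) (c (j + 1)) fun e => u * ρ e + (1 - u) * σ e) →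
      N ≤ b + 3 * ∑ l, {κ : Fin k → ℕ |
        ∑ e, σ e * (κ e : ℝ) < 1 - ∑ e, σ e * n e l / c 0 e ∨
        (∑ e, σ e * (κ e : ℝ) = 1 - ∑ e, σ e * n e l / c 0 e ∧
          ∑ e, ρ e * (κ e : ℝ) < 1 - ∑ e, ρ e * n e l / c 0 e)}.ncard := by
  obtain ⟨b, hb⟩ := stEB Y
  refine ⟨b, fun χ k M m ρ σ N W X Z r v p P G f f' A L c n t hχ hM hnef hm hσ hsum hsum' hR
    hc ht hn hflip => ?_⟩
  set s : Fin r → ℝ := fun l => ∑ e, σ e * n e l / c 0 e with hs
  set q : Fin r → ℝ := fun l => ∑ e, ρ e * n e l / c 0 e with hq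
  set K : Fin r → Set (Fin k → ℕ) := fun l => {κ | ∑ e, σ e * (κ e : ℝ) < 1 - s l ∨
    (∑ e, σ e * (κ e : ℝ) = 1 - s l ∧ ∑ e, ρ e * (κ e : ℝ) < 1 - q l)} with hK
  have hs0 : ∀ l, 0 ≤ s l := fun l => by
    rcases hn l with h | h
    · exact h.le
    · exact h.1.ge
  -- the finite sets
  have hBf : {κ : Fin k → ℕ | ∑ e, σ e * (κ e : ℝ) < 2}.Finite := by
    have h1 := finite_kap (ρ := fun e => σ e / 2) fun e => by have := hσ e; positivity
    refine h1.subset fun κ hκ => ?_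
    have h2 : ∑ e, σ e * (κ e : ℝ) < 2 := hκ
    show ∑ e, σ e / 2 * (κ e : ℝ) < 1
    have h3 : ∑ e, σ e / 2 * (κ e : ℝ) = (∑ e, σ e * (κ e : ℝ)) / 2 := by
      rw [Finset.sum_div]
      exact Finset.sum_congr rfl fun e _ => by ring
    rw [h3]
    linarith
  have hKf : ∀ l, (K l).Finite := by
    intro l
    refine hBf.subset fun κ hκ => ?_
    have h1 := hs0 l
    show ∑ e, σ e * (κ e : ℝ) < 2
    rcases hκ with h | h
    · linarith
    · linarith [h.1]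
  -- the choice of `u`
  have e1 : ∀ᶠ u : ℝ in 𝓝[>] 0, ∀ l, 0 ≤ u * q l + (1 - u) * s l := by
    rw [eventually_all]
    intro l
    rcases hn l with h | h
    · have h1 : Tendsto (fun t : ℝ => t * q l + (1 - t) * s l) (𝓝 0)
        (𝓝 (0 * q l + (1 - 0) * s l)) := Continuous.tendsto (by fun_prop) 0
      have h2 : ∀ᶠ t : ℝ in 𝓝 0, 0 < t * q l + (1 - t) * s l :=
        h1.eventually_const_lt (by have : 0 < s l := h; linarith)
      filter_upwards [h2.filter_mono nhdsWithin_le_nhds] with u hu using hu.le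
    · filter_upwards [self_mem_nhdsWithin] with u hu
      have h3 : s l = 0 := h.1
      rw [h3, mul_zero, add_zero]
      exact mul_nonneg (le_of_lt hu) h.2
  have e2 : ∀ᶠ u : ℝ in 𝓝[>] 0, ∀ e, σ e / 2 < u * ρ e + (1 - u) * σ e := by
    rw [eventually_all]
    intro e
    have h1 : Tendsto (fun t : ℝ => t * ρ e + (1 - t) * σ e) (𝓝 0)
      (𝓝 (0 * ρ e + (1 - 0) * σ e)) := Continuous.tendsto (by fun_prop) 0
    have h2 : ∀ᶠ t : ℝ in 𝓝 0, σ e / 2 < t * ρ e + (1 - t) * σ e :=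
      h1.eventually_const_lt (by have := hσ e; linarith)
    exact h2.filter_mono nhdsWithin_le_nhds
  have e3 : ∀ᶠ u : ℝ in 𝓝[>] 0, ∀ l, ∀ κ ∈ {κ : Fin k → ℕ | ∑ e, σ e * (κ e : ℝ) < 2},
      0 < u * (1 - q l - ∑ e, ρ e * (κ e : ℝ)) + (1 - u) * (1 - s l - ∑ e, σ e * (κ e : ℝ)) →
      κ ∈ K l := by
    rw [eventually_all]
    intro l
    rw [Set.Finite.eventually_all hBf]
    intro κ _
    filter_upwards [ev_lex (1 - q l - ∑ e, ρ e * (κ e : ℝ)) (1 - s l - ∑ e, σ e * (κ e : ℝ))]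
      with u hu h
    rcases hu h with h1 | h1
    · left; linarith
    · right; exact ⟨by linarith [h1.1], by linarith [h1.2]⟩
  have e4 : ∀ᶠ u : ℝ in 𝓝[>] 0, u < 1 := by
    have : ∀ᶠ t : ℝ in 𝓝 0, t < 1 := gt_mem_nhds zero_lt_one
    exact this.filter_mono nhdsWithin_le_nhds
  have e5 : ∀ᶠ u : ℝ in 𝓝[>] 0, 0 < u := self_mem_nhdsWithin
  obtain ⟨u, ⟨⟨⟨⟨h1, h2⟩, h3⟩, h4⟩, h5⟩⟩ := ((((e1.and e2).and e3).and e4).and e5).exists
  set τ : Fin k → ℝ := fun e => u * ρ e + (1 - u) * σ e with hτ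
  have hτs : ∀ g : Fin k → ℝ, ∑ e, τ e * g e =
      u * (∑ e, ρ e * g e) + (1 - u) * ∑ e, σ e * g e := by
    intro g
    rw [Finset.mul_sum, Finset.mul_sum, ← Finset.sum_add_distrib]
    refine Finset.sum_congr rfl fun e _ => ?_
    simp only [hτ]
    ring
  have hτn : ∀ l, ∑ e, τ e * n e l / c 0 e = u * q l + (1 - u) * s l := by
    intro l
    have := hτs fun e => (n e l : ℝ) / c 0 e
    simp only [← mul_div_assoc] at this
    exact this
  have h6 := hb χ k M m τ N W X Z r v p P G f f' A L c n t hχ hM hnef hm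
    (fun e => lt_trans (by have := hσ e; positivity) (h2 e))
    (by rw [hτs, hsum, hsum']; ring) hR hc ht (fun l => by rw [hτn]; exact h1 l)
    fun j hj => hflip j hj u h5 h4.le
  refine h6.trans (Nat.add_le_add_left (Nat.mul_le_mul_left 3 (Finset.sum_le_sum fun l _ => ?_)) b)
  refine ncard_le_ncard (fun κ hκ => ?_) (hKf l)
  have h7 : ∑ e, τ e * (κ e : ℝ) < 1 - ∑ e, τ e * n e l / c 0 e := hκ
  rw [hτn] at h7
  refine h3 l κ ?_ ?_
  · show ∑ e, σ e * (κ e : ℝ) < 2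
    have h8 : ∑ e, σ e / 2 * (κ e : ℝ) ≤ ∑ e, τ e * (κ e : ℝ) :=
      Finset.sum_le_sum fun e _ => mul_le_mul_of_nonneg_right (h2 e).le (Nat.cast_nonneg _)
    have h9 : ∑ e, σ e / 2 * (κ e : ℝ) = (∑ e, σ e * (κ e : ℝ)) / 2 := by
      rw [Finset.sum_div]
      exact Finset.sum_congr rfl fun e _ => by ring
    have h10 := h1 l
    rw [h9] at h8
    linarith
  · rw [hτs] at h7
    linarith

end Vale.Agent.P277.H619.EB
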